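import Vale.Agent.P269.LN.Base

/-!
# [B0] [B1] [B2] the numbers of lines
-/

set_option autoImplicit false

namespace Vale.Agent.P269.LN.H984

open Vale.Agent.P269.CI

variable {X : CompleteIntersection} {F : ℕ → ℕ → List (Ins X) → ℂ}

/-! ### The degree -/

theorem natDegree_factor (d k : ℕ) : (Polynomial.C ((d : ℂ) - (k + 1)) +
    Polynomial.C ((k : ℂ) + 1) * Polynomial.X).natDegree ≤ 1 := by
  rw [add_comm]
  exact Polynomial.natDegree_linear_le

theorem natDegree_one (d : ℕ) : (Polynomial.C (d : ℂ) * ∏ k ∈ Finset.range (d - 1),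
    (Polynomial.C ((d : ℂ) - (k + 1)) + Polynomial.C ((k : ℂ) + 1) * Polynomial.X)).natDegree ≤
      d - 1 := by
  refine (Polynomial.natDegree_C_mul_le _ _).trans ((Polynomial.natDegree_prod_le _ _).trans ?_)
  refine (Finset.sum_le_sum fun k _ => natDegree_factor d k).trans ?_
  simp

theorem natDegree_list (L : List ℕ) (f : ℕ → Polynomial ℂ) (hf : ∀ d, (f d).natDegree ≤ d - 1) :
    (L.map f).prod.natDegree ≤ (L.map fun d => d - 1).sum := by
  induction L with
  | nil => simp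
  | cons a L ih =>
    rw [List.map_cons, List.prod_cons, List.map_cons, List.sum_cons]
    exact Polynomial.natDegree_mul_le.trans (Nat.add_le_add (hf a) ih)

theorem natDegree_linePoly (X : CompleteIntersection) : (linePoly X).natDegree ≤ excess X :=
  natDegree_list X.degs _ natDegree_one

theorem sum_degs (L : List ℕ) (h : ∀ d ∈ L, 1 ≤ d) :
    (L.map fun d => d - 1).sum + L.length = L.sum := by
  induction L with
  | nil => simp
  | cons a L ih =>
    rw [List.map_cons, List.sum_cons, List.sum_cons, List.length_cons]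
    have h1 := h a (by simp)
    have h2 := ih fun d hd => h d (by simp [hd])
    omega

theorem excess_eq (ν : ℕ) (hν : index X = ν) : ν + excess X = X.dim + 1 := by
  have h1 := sum_degs X.degs X.degs_pos
  unfold index at hν
  unfold excess
  omega

/-- **[B0]** (the degree of `linePoly` is `excess`) -/
theorem isL_ell (hL : IsLine F) (ν : ℕ) (hν : index X = ν) (h2 : 2 ≤ ν) : IsL F ν (ell X ν) := by
  have he := excess_eq ν hν
  refine ⟨fun i j hij => ?_, fun n hn => ?_, fun n hn => ?_⟩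
  · have hj := j.isLt
    unfold ell
    rw [if_pos (by omega)]
    refine hL.lines i j (i + 1 - ν) ?_ ?_
    · rw [hν]
      omega
    · rw [hν]
      omega
  · unfold ell
    split_ifs with h
    · exact Polynomial.coeff_eq_zero_of_natDegree_lt
        (lt_of_le_of_lt (natDegree_linePoly X) (by omega))
    · rfl
  · unfold ell
    rw [if_neg (by omega)]

/-! ### The moments -/

/-- value, mean and variance at one -/
structure Ty (p : Polynomial ℂ) (S c V : ℂ) : Prop where
  e0 : p.eval 1 = S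
  e1 : p.derivative.eval 1 = S * c
  e2 : p.derivative.derivative.eval 1 = S * (V + c ^ 2 - c)

theorem Ty.mul {p q : Polynomial ℂ} {S c V S' c' V' : ℂ} (hp : Ty p S c V) (hq : Ty q S' c' V') :
    Ty (p * q) (S * S') (c + c') (V + V') := by
  refine ⟨?_, ?_, ?_⟩
  · rw [Polynomial.eval_mul, hp.e0, hq.e0]
  · rw [Polynomial.derivative_mul, Polynomial.eval_add, Polynomial.eval_mul, Polynomial.eval_mul,
      hp.e0, hq.e0, hp.e1, hq.e1]
    ring
  · rw [Polynomial.derivative_mul, Polynomial.derivative_add, Polynomial.derivative_mul,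
      Polynomial.derivative_mul]
    simp only [Polynomial.eval_add, Polynomial.eval_mul]
    rw [hp.e0, hq.e0, hp.e1, hq.e1, hp.e2, hq.e2]
    ring

theorem Ty.one : Ty 1 1 0 0 := by
  refine ⟨by simp, by simp, by simp⟩

theorem Ty.const (a : ℂ) : Ty (Polynomial.C a) a 0 0 := by
  refine ⟨by simp, by simp, by simp⟩

theorem Ty.lin (a b d : ℂ) (hd : d ≠ 0) (hab : a + b = d) :
    Ty (Polynomial.C a + Polynomial.C b * Polynomial.X) d (b / d) (b / d - (b / d) ^ 2) := by
  refine ⟨by simpa using hab, ?_, by simp⟩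
  simp only [Polynomial.derivative_add, Polynomial.derivative_C, Polynomial.derivative_C_mul,
    Polynomial.derivative_X, Polynomial.eval_add, Polynomial.eval_mul, Polynomial.eval_C,
    Polynomial.eval_one, Polynomial.eval_zero]
  field_simp
  ring

theorem Ty.finprod (n : ℕ) (f : ℕ → Polynomial ℂ) (S c V : ℕ → ℂ)
    (h : ∀ k < n, Ty (f k) (S k) (c k) (V k)) :
    Ty (∏ k ∈ Finset.range n, f k) (∏ k ∈ Finset.range n, S k) (∑ k ∈ Finset.range n, c k)
      (∑ k ∈ Finset.range n, V k) := by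
  induction n with
  | zero => simpa using Ty.one
  | succ n ih =>
    rw [Finset.prod_range_succ, Finset.prod_range_succ, Finset.sum_range_succ,
      Finset.sum_range_succ]
    exact (ih fun k hk => h k (by omega)).mul (h n (by omega))

theorem Ty.listprod (L : List ℕ) (f : ℕ → Polynomial ℂ) (S c V : ℕ → ℂ)
    (h : ∀ d ∈ L, Ty (f d) (S d) (c d) (V d)) :
    Ty (L.map f).prod (L.map S).prod (L.map c).sum (L.map V).sum := by
  induction L with
  | nil => simpa using Ty.one
  | cons a L ih =>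
    rw [List.map_cons, List.map_cons, List.map_cons, List.map_cons, List.prod_cons,
      List.prod_cons, List.sum_cons, List.sum_cons]
    exact (h a (by simp)).mul (ih fun d hd => h d (by simp [hd]))

theorem sum_one (n : ℕ) : ∑ k ∈ Finset.range n, ((k : ℂ) + 1) = (n : ℂ) * (n + 1) / 2 := by
  induction n with
  | zero => simp
  | succ n ih =>
    rw [Finset.sum_range_succ, ih]
    push_cast
    ring

theorem sum_two (n : ℕ) : ∑ k ∈ Finset.range n, ((k : ℂ) + 1) ^ 2 =
    (n : ℂ) * (n + 1) * (2 * n + 1) / 6 := by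
  induction n with
  | zero => simp
  | succ n ih =>
    rw [Finset.sum_range_succ, ih]
    push_cast
    ring

theorem Ty.factor (d : ℕ) (hd : 1 ≤ d) : Ty (Polynomial.C (d : ℂ) * ∏ k ∈ Finset.range (d - 1),
    (Polynomial.C ((d : ℂ) - (k + 1)) + Polynomial.C ((k : ℂ) + 1) * Polynomial.X))
      ((d : ℂ) ^ d) (((d - 1 : ℕ) : ℂ) / 2) (((d : ℂ) - 1 / d) / 6) := by
  have hd0 : (d : ℂ) ≠ 0 := Nat.cast_ne_zero.2 (by omega)
  have h1 := (Ty.const (d : ℂ)).mul (Ty.finprod (d - 1)
    (fun k => Polynomial.C ((d : ℂ) - (k + 1)) + Polynomial.C ((k : ℂ) + 1) * Polynomial.X)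
    (fun _ => (d : ℂ)) (fun k => ((k : ℂ) + 1) / d)
    (fun k => ((k : ℂ) + 1) / d - (((k : ℂ) + 1) / d) ^ 2)
    (fun k _ => Ty.lin _ _ _ hd0 (by ring)))
  obtain ⟨n, rfl⟩ : ∃ n, d = n + 1 := ⟨d - 1, by omega⟩
  have e1 : (((n + 1 : ℕ) : ℂ)) * ∏ _k ∈ Finset.range (n + 1 - 1), ((n + 1 : ℕ) : ℂ) =
      ((n + 1 : ℕ) : ℂ) ^ (n + 1) := by
    rw [Finset.prod_const, Finset.card_range, Nat.add_sub_cancel, pow_succ, mul_comm]
  have e2 : (0 : ℂ) + ∑ k ∈ Finset.range (n + 1 - 1), ((k : ℂ) + 1) / ((n + 1 : ℕ) : ℂ) =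
      ((n + 1 - 1 : ℕ) : ℂ) / 2 := by
    rw [zero_add, ← Finset.sum_div, Nat.add_sub_cancel, sum_one]
    push_cast at hd0 ⊢
    field_simp
  have e3 : (0 : ℂ) + ∑ k ∈ Finset.range (n + 1 - 1), (((k : ℂ) + 1) / ((n + 1 : ℕ) : ℂ) -
      (((k : ℂ) + 1) / ((n + 1 : ℕ) : ℂ)) ^ 2) =
      (((n + 1 : ℕ) : ℂ) - 1 / ((n + 1 : ℕ) : ℂ)) / 6 := by
    rw [zero_add, Finset.sum_sub_distrib]
    have e4 : ∀ k : ℕ, (((k : ℂ) + 1) / ((n + 1 : ℕ) : ℂ)) ^ 2 =
        ((k : ℂ) + 1) ^ 2 / ((n + 1 : ℕ) : ℂ) ^ 2 := fun k => div_pow _ _ _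
    simp only [e4]
    rw [← Finset.sum_div, ← Finset.sum_div, Nat.add_sub_cancel, sum_one, sum_two]
    push_cast at hd0 ⊢
    field_simp
    ring
  rw [e1, e2, e3] at h1
  exact h1

theorem sum_half (L : List ℕ) : (L.map fun d : ℕ => (((d - 1 : ℕ) : ℂ)) / 2).sum =
    (((L.map fun d => d - 1).sum : ℕ) : ℂ) / 2 := by
  induction L with
  | nil => simp
  | cons a L ih =>
    rw [List.map_cons, List.map_cons, List.sum_cons, List.sum_cons, ih]
    push_cast
    ring

theorem Ty.linePoly (X : CompleteIntersection) : Ty (CI.linePoly X)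
    ((X.degs.map fun d : ℕ => (d : ℂ) ^ d).prod) ((excess X : ℂ) / 2)
    ((X.degs.map fun d : ℕ => ((d : ℂ) - 1 / d) / 6).sum) := by
  have h := Ty.listprod X.degs (fun d : ℕ => Polynomial.C (d : ℂ) * ∏ k ∈ Finset.range (d - 1),
    (Polynomial.C ((d : ℂ) - (k + 1)) + Polynomial.C ((k : ℂ) + 1) * Polynomial.X))
    (fun d : ℕ => (d : ℂ) ^ d) (fun d : ℕ => (((d - 1 : ℕ) : ℂ)) / 2)
    (fun d : ℕ => ((d : ℂ) - 1 / d) / 6) (fun d hd => Ty.factor d (X.degs_pos d hd))
  rw [sum_half] at h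
  exact h

theorem sums_eq {p : Polynomial ℂ} {n : ℕ} (hp : p.natDegree < n) :
    p.eval 1 = ∑ m ∈ Finset.range n, p.coeff m ∧
    p.derivative.eval 1 = ∑ m ∈ Finset.range n, p.coeff m * m ∧
    p.derivative.derivative.eval 1 = ∑ m ∈ Finset.range n, p.coeff m * ((m : ℂ) ^ 2 - m) := by
  have h := p.as_sum_range' n hp
  refine ⟨?_, ?_, ?_⟩
  · rw [Polynomial.eval_eq_sum_range' hp]
    simp
  · conv_lhs => rw [h]
    rw [Polynomial.derivative_sum, Polynomial.eval_finsetSum]
    refine Finset.sum_congr rfl fun m _ => ?_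
    rw [Polynomial.derivative_monomial, Polynomial.eval_monomial, one_pow, mul_one]
  · conv_lhs => rw [h]
    rw [Polynomial.derivative_sum, Polynomial.derivative_sum, Polynomial.eval_finsetSum]
    refine Finset.sum_congr rfl fun m _ => ?_
    rw [Polynomial.derivative_monomial, Polynomial.derivative_monomial, Polynomial.eval_monomial,
      one_pow, mul_one, mul_assoc]
    congr 1
    rcases m with _ | m
    · simp
    · rw [Nat.add_sub_cancel]
      push_cast
      ring

/-- the sum over `n` as a sum over the coefficients -/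
theorem sum_shift (ν : ℕ) (hν : index X = ν) (h2 : 2 ≤ ν) (g : ℕ → ℂ) :
    ∑ n ∈ Finset.range (X.dim + 1), ell X ν n * g n =
      ∑ m ∈ Finset.range (excess X + 1), (linePoly X).coeff m * g (ν - 1 + m) := by
  have he := excess_eq ν hν
  have h1 : X.dim + 1 = (ν - 1) + (excess X + 1) := by omega
  rw [h1, Finset.sum_range_add]
  have h3 : ∑ x ∈ Finset.range (ν - 1), ell X ν x * g x = 0 := by
    refine Finset.sum_eq_zero fun x hx => ?_
    have := Finset.mem_range.1 hx
    unfold ell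
    rw [if_neg (by omega), zero_mul]
  rw [h3, zero_add]
  refine Finset.sum_congr rfl fun m _ => ?_
  unfold ell
  rw [if_pos (by omega)]
  congr 2
  omega

/-- **[B1]** `ell` has sum `∏ d^d` -/
theorem sum_ell (ν : ℕ) (hν : index X = ν) (h2 : 2 ≤ ν) :
    ∑ n ∈ Finset.range (X.dim + 1), ell X ν n = (X.degs.map fun d : ℕ => (d : ℂ) ^ d).prod := by
  have h := sum_shift ν hν h2 (fun _ => 1)
  simp only [mul_one] at h
  rw [h, ← (sums_eq (Nat.lt_succ_of_le (natDegree_linePoly X))).1]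
  exact (Ty.linePoly X).e0

/-- **[B2]** the second moment -/
theorem moment_ell (ν : ℕ) (hν : index X = ν) (h2 : 2 ≤ ν) :
    ∑ n ∈ Finset.range (X.dim + 1), ell X ν n * ((n : ℂ) - (X.dim + ν - 1) / 2) ^ 2 =
      (X.degs.map fun d : ℕ => (d : ℂ) ^ d).prod *
        (X.degs.map fun d : ℕ => ((d : ℂ) - 1 / d) / 6).sum := by
  have he := excess_eq ν hν
  have he' : (X.dim : ℂ) = ν + excess X - 1 := by
    have h := congrArg (fun n : ℕ => (n : ℂ)) he
    push_cast at h
    rw [h]
    ring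
  rw [sum_shift ν hν h2 (fun n => ((n : ℂ) - (X.dim + ν - 1) / 2) ^ 2)]
  obtain ⟨s0, s1, s2⟩ := sums_eq (Nat.lt_succ_of_le (natDegree_linePoly X))
  have hT := Ty.linePoly X
  rw [hT.e0] at s0
  rw [hT.e1] at s1
  rw [hT.e2] at s2
  have h3 : ∀ m : ℕ, (linePoly X).coeff m *
      ((((ν - 1 + m : ℕ) : ℂ)) - (X.dim + ν - 1) / 2) ^ 2 =
      (linePoly X).coeff m * ((m : ℂ) ^ 2 - m) +
        (1 - excess X) * ((linePoly X).coeff m * m) +
          (excess X : ℂ) ^ 2 / 4 * (linePoly X).coeff m := by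
    intro m
    have h4 : (((ν - 1 + m : ℕ) : ℂ)) = ν - 1 + m := by
      rw [Nat.cast_add, Nat.cast_sub (by omega), Nat.cast_one]
    rw [h4, he']
    ring
  simp only [h3]
  rw [Finset.sum_add_distrib, Finset.sum_add_distrib, ← Finset.mul_sum, ← Finset.mul_sum]
  simp only [Nat.succ_eq_add_one] at s0 s1 s2
  rw [← s0, ← s1, ← s2]
  ring

end Vale.Agent.P269.LN.H984
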