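import Vale.Agent.P269.LN.Defs
import Vale.Agent.P269.G1I.Conc
import Vale.Agent.P269.G1I.H276.Pow

/-!
# [B3] two-point descendants in degree one
-/

set_option autoImplicit false

namespace Vale.Agent.P269.LN.H984

open Finset.HasAntidiagonal (antidiagonal)
open Vale.Agent.P269.CI
open Vale.Agent.P269.G1

variable {X : CompleteIntersection} {F : ℕ → ℕ → List (Ins X) → ℂ}

theorem lowerSum_pair (T : Ix X → Ix X → ℂ) (G : List (Ins X) → ℂ) (a b : Ix X) (m : ℕ) :
    lowerSum X T G [(a, m), (b, 0)] =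
      if m = 0 then 0 else ∑ c, T a c * G [(c, m - 1), (b, 0)] := by
  have h1 : lowerSum X T G [(a, m), (b, 0)] =
      ∑ j : Fin 2, if (([(a, m), (b, 0)] : List (Ins X)).get j).2 = 0 then 0 else
        ∑ c, T (([(a, m), (b, 0)] : List (Ins X)).get j).1 c *
          G (([(a, m), (b, 0)] : List (Ins X)).set j
            (c, (([(a, m), (b, 0)] : List (Ins X)).get j).2 - 1)) := rfl
  rw [h1, Fin.sum_univ_two]
  have h2 : (([(a, m), (b, 0)] : List (Ins X)).get (1 : Fin 2)).2 = 0 := rfl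
  rw [if_pos h2, add_zero]
  rfl

theorem integral_inr (q : X.Prim) (b : Fin (X.dim + 1)) :
    integral X [Sum.inr q, hcls X, Sum.inl b] = 0 := by
  unfold integral
  have h0 : hcls X ≠ one X := by
    intro h
    have h1 := congrArg (hp X) h
    simp [hp, hcls, one] at h1
  have h1 : ([Sum.inr q, hcls X, Sum.inl b] : List (Ix X)).filter (fun a => a ≠ one X) =
      Sum.inr q :: hcls X :: ([Sum.inl b] : List (Ix X)).filter (fun a => a ≠ one X) := by
    rw [List.filter_cons_of_pos (by simp [one]), List.filter_cons_of_pos (by simpa using h0)]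
  rw [h1]
  generalize ([Sum.inl b] : List (Ix X)).filter (fun a => a ≠ one X) = M
  split
  · rename_i u v h
    simp [hcls] at h
  · rw [if_neg]
    rintro ⟨h, _⟩
    obtain ⟨j, hj⟩ := h (Sum.inr q) (by simp)
    simp at hj

theorem deg0_inr (hF : IsGW X F) (q : X.Prim) (b : Fin (X.dim + 1)) :
    F 0 0 [(Sum.inr q, 0), (hcls X, 0), (Sum.inl b, 0)] = 0 := by
  have h := hF.degreeZero [Sum.inr q, hcls X, Sum.inl b]
  simp only [List.map_cons, List.map_nil, List.length_cons, List.length_nil] at h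
  rw [if_pos trivial, integral_inr] at h
  exact h

theorem deg0_inl (hF : IsGW X F) (a b : Fin (X.dim + 1)) :
    F 0 0 [(Sum.inl a, 0), (hcls X, 0), (Sum.inl b, 0)] =
      if (a : ℕ) + 1 + b = X.dim then CI.deg X else 0 :=
  H276.deg0 hF a ⟨1, by have := X.two_le_dim; omega⟩ b

/-- the two-point numbers of degree one -/
noncomputable def tp (X : CompleteIntersection) (F : ℕ → ℕ → List (Ins X) → ℂ) (k a b : ℕ) : ℂ :=
  if h : a < X.dim + 1 ∧ b < X.dim + 1 then
    F 0 1 [(Sum.inl ⟨a, h.1⟩, k), (Sum.inl ⟨b, h.2⟩, 0)] else 0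

theorem tp_of (k : ℕ) (a b : Fin (X.dim + 1)) :
    tp X F k a b = F 0 1 [(Sum.inl a, k), (Sum.inl b, 0)] := by
  unfold tp
  rw [dif_pos ⟨a.isLt, b.isLt⟩]

theorem tp_zero_left {k a b : ℕ} (h : X.dim < a) : tp X F k a b = 0 := by
  unfold tp
  rw [dif_neg]
  omega

theorem tp_zero_right {k a b : ℕ} (h : X.dim < b) : tp X F k a b = 0 := by
  unfold tp
  rw [dif_neg]
  omega

/-- the divisor equation -/
theorem div_eq (hF : IsGW X F) (k : ℕ) (a b : Fin (X.dim + 1)) :
    F 0 1 [(hcls X, 0), (Sum.inl a, k + 1), (Sum.inl b, 0)] =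
      tp X F (k + 1) a b + tp X F k (a + 1) b := by
  have h1 := hF.divisor 0 1 [(Sum.inl a, k + 1), (Sum.inl b, 0)]
  rw [h1, lowerSum_pair, if_neg (Nat.succ_ne_zero k), if_neg (by simp), if_neg (by simp),
    add_zero, add_zero, tp_of, Nat.cast_one, one_mul, Nat.add_sub_cancel]
  congr 1
  rw [Fintype.sum_sum_type]
  have h2 : ∑ x : X.Prim, hmul X (Sum.inl a) (Sum.inr x) * F 0 1 [(Sum.inr x, k), (Sum.inl b, 0)] =
      0 := Finset.sum_eq_zero fun x _ => by
    show (0 : ℂ) * _ = 0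
    rw [zero_mul]
  rw [h2, add_zero]
  by_cases ha : (a : ℕ) + 1 < X.dim + 1
  · rw [Finset.sum_eq_single (⟨a + 1, ha⟩ : Fin (X.dim + 1))]
    · have h3 : hmul X (Sum.inl a) (Sum.inl ⟨a + 1, ha⟩) = 1 := if_pos rfl
      rw [h3, one_mul]
      exact (tp_of k ⟨a + 1, ha⟩ b).symm
    · intro c _ hc
      have h3 : hmul X (Sum.inl a) (Sum.inl c) = 0 := if_neg fun h => hc (Fin.ext h)
      rw [h3, zero_mul]
    · simp
  · rw [tp_zero_left (by omega)]
    refine Finset.sum_eq_zero fun c _ => ?_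
    have h3 : hmul X (Sum.inl a) (Sum.inl c) = 0 := if_neg fun h => ha (by
      have := c.isLt
      omega)
    rw [h3, zero_mul]

/-- topological recursion -/
theorem trr_eq (hF : IsGW X F) (k : ℕ) (a b : Fin (X.dim + 1)) :
    F 0 1 [(hcls X, 0), (Sum.inl a, k + 1), (Sum.inl b, 0)] = tp X F k a (b + 1) := by
  have hs := hF.symm 0 1 [] [(Sum.inl b, 0)] (hcls X, 0) (Sum.inl a, k + 1)
  have hs1 : sgn (par X (hcls X)) (par X (Sum.inl a)) = 1 := by simp [sgn, par]
  rw [List.nil_append, List.nil_append, hs1, one_mul] at hs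
  rw [hs, hF.trr 1 (Sum.inl a) k (hcls X, 0) (Sum.inl b, 0) []]
  have h1 : ∀ α β : Ix X, ∑ e ∈ antidiagonal 1, shuffle X []
      (fun M => F 0 e.1 ((β, 0) :: (hcls X, 0) :: (Sum.inl b, 0) :: M))
      (fun M => F 0 e.2 ((Sum.inl a, k) :: (α, 0) :: M)) =
      F 0 0 [(β, 0), (hcls X, 0), (Sum.inl b, 0)] * F 0 1 [(Sum.inl a, k), (α, 0)] := by
    intro α β
    have h2 : (antidiagonal 1 : Finset (ℕ × ℕ)) = {(0, 1), (1, 0)} := rfl
    rw [h2, Finset.sum_insert (by simp), Finset.sum_singleton]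
    have h3 : F 0 0 [(Sum.inl a, k), (α, 0)] = 0 := hF.unstable0 _ (by simp)
    show F 0 0 [(β, 0), (hcls X, 0), (Sum.inl b, 0)] * F 0 1 [(Sum.inl a, k), (α, 0)] +
      F 0 1 [(β, 0), (hcls X, 0), (Sum.inl b, 0)] * F 0 0 [(Sum.inl a, k), (α, 0)] = _
    rw [h3, mul_zero, add_zero]
  simp only [h1]
  rw [Fintype.sum_sum_type]
  have hd := H276.deg_ne X
  have h4 : ∑ α : X.Prim, ∑ β : Ix X, pairingInv X (Sum.inr α) β *
      (F 0 0 [(β, 0), (hcls X, 0), (Sum.inl b, 0)] * F 0 1 [(Sum.inl a, k), (Sum.inr α, 0)]) =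
      0 := by
    refine Finset.sum_eq_zero fun α _ => Finset.sum_eq_zero fun β _ => ?_
    rcases β with β | β
    · show (0 : ℂ) * _ = 0
      rw [zero_mul]
    · rw [deg0_inr hF, zero_mul, mul_zero]
  rw [h4, add_zero]
  have h5 : ∀ α : Fin (X.dim + 1), ∑ β : Ix X, pairingInv X (Sum.inl α) β *
      (F 0 0 [(β, 0), (hcls X, 0), (Sum.inl b, 0)] * F 0 1 [(Sum.inl a, k), (Sum.inl α, 0)]) =
      if (α : ℕ) = b + 1 then tp X F k a (b + 1) else 0 := by
    intro α
    have hα := α.isLt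
    have hb := b.isLt
    rw [Fintype.sum_sum_type]
    have h6 : ∑ β : X.Prim, pairingInv X (Sum.inl α) (Sum.inr β) *
        (F 0 0 [(Sum.inr β, 0), (hcls X, 0), (Sum.inl b, 0)] *
          F 0 1 [(Sum.inl a, k), (Sum.inl α, 0)]) = 0 := Finset.sum_eq_zero fun β _ => by
      show (0 : ℂ) * _ = 0
      rw [zero_mul]
    rw [h6, add_zero, Finset.sum_eq_single (⟨X.dim - α, by omega⟩ : Fin (X.dim + 1))]
    · have h7 : pairingInv X (Sum.inl α) (Sum.inl ⟨X.dim - α, by omega⟩) = (CI.deg X)⁻¹ :=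
        if_pos (show (α : ℕ) + (X.dim - α) = X.dim by omega)
      rw [h7, deg0_inl hF]
      by_cases h8 : (α : ℕ) = b + 1
      · rw [if_pos h8, if_pos (show X.dim - (α : ℕ) + 1 + b = X.dim by omega), ← mul_assoc,
          inv_mul_cancel₀ hd, one_mul, ← h8, tp_of]
      · rw [if_neg h8, if_neg (show ¬ X.dim - (α : ℕ) + 1 + b = X.dim by omega), zero_mul,
          mul_zero]
    · intro β _ hβ
      have h7 : pairingInv X (Sum.inl α) (Sum.inl β) = 0 := if_neg fun h =>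
        hβ (Fin.ext (show (β : ℕ) = X.dim - α by omega))
      rw [h7, zero_mul]
    · simp
  simp only [h5]
  by_cases hb : (b : ℕ) + 1 < X.dim + 1
  · rw [Finset.sum_eq_single (⟨b + 1, hb⟩ : Fin (X.dim + 1)), if_pos rfl]
    · intro c _ hc
      rw [if_neg fun h => hc (Fin.ext h)]
    · simp
  · rw [tp_zero_right (by omega)]
    simp

/-- the recursion -/
theorem tp_rec (hF : IsGW X F) (k a b : ℕ) :
    tp X F (k + 1) a b = (if a ≤ X.dim ∧ b ≤ X.dim then
      tp X F k a (b + 1) - tp X F k (a + 1) b else 0) := by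
  split_ifs with h
  · have h1 := div_eq hF k ⟨a, by omega⟩ ⟨b, by omega⟩
    have h2 := trr_eq hF k ⟨a, by omega⟩ ⟨b, by omega⟩
    have h3 : tp X F (k + 1) a b + tp X F k (a + 1) b = tp X F k a (b + 1) := h1.symm.trans h2
    rw [← h3]
    ring
  · unfold tp
    rw [dif_neg]
    omega

theorem alt_sum (f : ℕ → ℂ) (k : ℕ) :
    ∑ i ∈ Finset.range (k + 1 + 1), (-1) ^ i * ((k + 1).choose i : ℂ) * f i =
      ∑ i ∈ Finset.range (k + 1), (-1) ^ i * (k.choose i : ℂ) * f i -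
        ∑ i ∈ Finset.range (k + 1), (-1) ^ i * (k.choose i : ℂ) * f (1 + i) := by
  rw [Finset.sum_range_succ' _ (k + 1)]
  have h1 : ∑ i ∈ Finset.range (k + 1), (-1) ^ (i + 1) * ((k + 1).choose (i + 1) : ℂ) * f (i + 1) =
      - ∑ i ∈ Finset.range (k + 1), (-1) ^ i * (k.choose i : ℂ) * f (1 + i) +
        ∑ i ∈ Finset.range (k + 1), (-1) ^ (i + 1) * (k.choose (i + 1) : ℂ) * f (i + 1) := by
    rw [← Finset.sum_neg_distrib, ← Finset.sum_add_distrib]
    refine Finset.sum_congr rfl fun i _ => ?_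
    rw [Nat.choose_succ_succ, add_comm 1 i]
    push_cast
    ring
  have h2 : ∑ i ∈ Finset.range (k + 1), (-1) ^ i * (k.choose i : ℂ) * f i =
      ∑ i ∈ Finset.range (k + 1), (-1) ^ (i + 1) * (k.choose (i + 1) : ℂ) * f (i + 1) +
        (-1) ^ 0 * (k.choose 0 : ℂ) * f 0 := by
    rw [← Finset.sum_range_succ' (fun i => (-1) ^ i * (k.choose i : ℂ) * f i) (k + 1),
      Finset.sum_range_succ _ (k + 1), Nat.choose_succ_self]
    simp
  rw [h1, h2]
  simp
  ring

theorem tp_eq (hF : IsGW X F) {ν : ℕ} {l : ℕ → ℂ}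
    (hval : ∀ i j : Fin (X.dim + 1), (i : ℕ) + j + 1 = X.dim + ν →
      F 0 1 [(hcls X, 0), hpow X i, hpow X j] = CI.deg X * l i)
    (hbig : ∀ n, X.dim < n → l n = 0) (hsmall : ∀ n, n + 1 < ν → l n = 0) (k : ℕ) :
    ∀ a b : ℕ, a + b + k + 1 = X.dim + ν →
      tp X F k a b = CI.deg X * ∑ i ∈ Finset.range (k + 1), (-1) ^ i * (k.choose i : ℂ) *
        l (a + i) := by
  induction k with
  | zero =>
    intro a b h
    rw [Finset.sum_range_one, pow_zero, Nat.choose_zero_right, Nat.cast_one, one_mul, one_mul,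
      add_zero]
    by_cases h1 : a < X.dim + 1 ∧ b < X.dim + 1
    · have h2 := hval ⟨a, h1.1⟩ ⟨b, h1.2⟩ h
      have h3 := hF.divisor 0 1 [(Sum.inl ⟨a, h1.1⟩, 0), (Sum.inl ⟨b, h1.2⟩, 0)]
      rw [lowerSum_pair, if_pos rfl, if_neg (by simp), if_neg (by simp), add_zero, add_zero,
        add_zero, Nat.cast_one, one_mul] at h3
      have h4 : F 0 1 [(hcls X, 0), hpow X ⟨a, h1.1⟩, hpow X ⟨b, h1.2⟩] =
          F 0 1 [(Sum.inl ⟨a, h1.1⟩, 0), (Sum.inl ⟨b, h1.2⟩, 0)] := h3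
      unfold tp
      rw [dif_pos h1, ← h4, h2]
    · unfold tp
      rw [dif_neg h1]
      rcases Nat.lt_or_ge X.dim a with h2 | h2
      · rw [hbig a h2, mul_zero]
      · rw [hsmall a (by omega), mul_zero]
  | succ k ih =>
    intro a b h
    rw [tp_rec hF, alt_sum (fun i => l (a + i)) k, mul_sub]
    by_cases h1 : a ≤ X.dim ∧ b ≤ X.dim
    · rw [if_pos h1, ih a (b + 1) (by omega), ih (a + 1) b (by omega)]
      congr 2
      refine Finset.sum_congr rfl fun i _ => ?_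
      rw [add_assoc]
    · rw [if_neg h1]
      rcases Nat.lt_or_ge X.dim a with h2 | h2
      · have h3 : ∀ i, l (a + i) = 0 := fun i => hbig _ (by omega)
        simp only [h3, mul_zero, Finset.sum_const_zero, sub_zero]
      · have h3 : ∀ i ∈ Finset.range (k + 1), (-1 : ℂ) ^ i * (k.choose i : ℂ) * l (a + i) = 0 := by
          intro i hi
          rw [hsmall (a + i) (by have := Finset.mem_range.1 hi; omega), mul_zero]
        have h4 : ∀ i ∈ Finset.range (k + 1), (-1 : ℂ) ^ i * (k.choose i : ℂ) * l (a + (1 + i)) =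
            0 := by
          intro i hi
          rw [hsmall (a + (1 + i)) (by have := Finset.mem_range.1 hi; omega), mul_zero]
        rw [Finset.sum_eq_zero h3, Finset.sum_eq_zero h4]
        simp

/-- **[B3]** with the hypotheses on `l` spelled out -/
theorem two_point_core (hF : IsGW X F) {ν : ℕ} {l : ℕ → ℂ}
    (hval : ∀ i j : Fin (X.dim + 1), (i : ℕ) + j + 1 = X.dim + ν →
      F 0 1 [(hcls X, 0), hpow X i, hpow X j] = CI.deg X * l i)
    (hbig : ∀ n, X.dim < n → l n = 0) (hsmall : ∀ n, n + 1 < ν → l n = 0)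
    (k : ℕ) (a b : Fin (X.dim + 1)) (h : (a : ℕ) + b + k + 1 = X.dim + ν) :
    F 0 1 [(Sum.inl a, k), (Sum.inl b, 0)] =
      CI.deg X * ∑ i ∈ Finset.range (k + 1), (-1) ^ i * (k.choose i : ℂ) * l (a + i) :=
  (tp_of k a b).symm.trans (tp_eq hF hval hbig hsmall k a b h)

end Vale.Agent.P269.LN.H984
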