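import Vale.Agent.P269.LN.Base
import Vale.Agent.P269.LN.H984.TwoPointCore

/-!
# [B3] two-point descendants in degree one: the literal
-/

set_option autoImplicit false

namespace Vale.Agent.P269.LN.H984

open Vale.Agent.P269.CI

variable {X : CompleteIntersection} {F : ℕ → ℕ → List (Ins X) → ℂ}

/-- **[B3]** two-point descendants in degree one: divisor equation and topological recursion -/
theorem two_point (hF : IsGW X F) (ν : ℕ) (hν : index X = ν) (h2 : 2 ≤ ν) (l : ℕ → ℂ)
    (hl : IsL F ν l) (k : ℕ) (a b : Fin (X.dim + 1)) (h : (a : ℕ) + b + k + 1 = X.dim + ν) :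
    F 0 1 [(Sum.inl a, k), (Sum.inl b, 0)] =
      deg X * ∑ i ∈ Finset.range (k + 1), (-1) ^ i * (k.choose i : ℂ) * l (a + i) :=
  two_point_core hF hl.val hl.big hl.small k a b h

end Vale.Agent.P269.LN.H984
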