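import Vale.Agent.P269.LN.Base
import Vale.Agent.P269.LN.H984.TwoPoint
import Vale.Agent.P269.LN.H984.Ell

/-!
# [B] the number of degree one
-/

set_option autoImplicit false

namespace Vale.Agent.P269.LN.H984

open Vale.Agent.P269.CI

variable {X : CompleteIntersection} {F : ℕ → ℕ → List (Ins X) → ℂ}

/-- the alternating sum -/
noncomputable def alt (X : CompleteIntersection) (ν k a : ℕ) : ℂ :=
  ∑ i ∈ Finset.range (k + 1), (-1) ^ i * (k.choose i : ℂ) * ell X ν (a + i)

theorem alt_big (hL : IsLine F) {ν : ℕ} (hν : index X = ν) (h2 : 2 ≤ ν) {k a : ℕ}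
    (ha : X.dim < a) : alt X ν k a = 0 := by
  refine Finset.sum_eq_zero fun i _ => ?_
  rw [(isL_ell hL ν hν h2).big (a + i) (by omega), mul_zero]

theorem sum_diag (n : ℕ) (f : ℕ → ℕ → ℂ) (hn : 2 ≤ n) :
    ∑ i ∈ Finset.range (n + 1), ∑ k ∈ Finset.range (n + 1), (if i + k + 2 = n then f i k else 0) =
      ∑ i ∈ Finset.range (n - 1), f i (n - 2 - i) := by
  obtain ⟨m, rfl⟩ : ∃ m, n = m + 2 := ⟨n - 2, by omega⟩
  have h1 : ∀ i, i ≤ m → ∑ k ∈ Finset.range (m + 2 + 1),
      (if i + k + 2 = m + 2 then f i k else 0) = f i (m - i) := by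
    intro i hi
    rw [Finset.sum_eq_single (m - i)]
    · rw [if_pos (by omega)]
    · intro k _ hk
      rw [if_neg (by omega)]
    · intro h
      exact absurd (Finset.mem_range.2 (by omega)) h
  have h2 : ∀ i, m < i → ∑ k ∈ Finset.range (m + 2 + 1),
      (if i + k + 2 = m + 2 then f i k else 0) = 0 := by
    intro i hi
    refine Finset.sum_eq_zero fun k _ => ?_
    rw [if_neg (by omega)]
  rw [Finset.sum_range_succ, Finset.sum_range_succ, h2 (m + 2) (by omega), h2 (m + 1) (by omega),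
    add_zero, add_zero]
  refine Finset.sum_congr rfl fun i hi => ?_
  rw [h1 i (by have := Finset.mem_range.1 hi; omega)]
  congr 1

/-- **[B]** from `[B4a]` -/
theorem number_of (hF : IsGW X F) (hL : IsLine F) (ν : ℕ) (hν : index X = ν) (h2 : 2 ≤ ν)
    (hr : ν + 1 ≤ X.dim)
    (h4 : ∑ j ∈ Finset.range (X.dim - 1), chernCoeff X j *
        ∑ i ∈ Finset.range (X.dim - 2 - j + 1), (-1) ^ i * ((X.dim - 2 - j).choose i : ℂ) *
          ell X ν (j + i) +
      chernCoeff X (X.dim - 1) * (ell X ν (X.dim - 1) + ell X ν X.dim) +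
      chernCoeff X X.dim * ell X ν X.dim -
    ∑ j ∈ Finset.range (X.dim - ν), chernCoeff X j *
        ∑ i ∈ Finset.range (X.dim - 2 - j + 1), (-1) ^ i * ((X.dim - 2 - j).choose i : ℂ) *
          ell X ν (j + ν + 1 + i) =
    (X.degs.map fun d : ℕ => (d : ℂ) ^ (d - 1)).prod * ((ν : ℂ) + 1) *
      ((ν : ℂ) / 2 + (X.degs.map fun d : ℕ => ((d : ℂ) + 1) / 2 - 1 / d).sum)) :
    24 * F 1 1 [hpow X ⟨ν + 1, by omega⟩] =
      deg X * (chernCoeff X (X.dim - 1) * (ell X ν (X.dim - 1) + ell X ν X.dim) +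
        chernCoeff X X.dim * ell X ν X.dim) -
      (X.degs.map fun d : ℕ => (d : ℂ) ^ d).prod * ((ν : ℂ) + 1) *
        ((ν : ℂ) / 2 + (X.degs.map fun d : ℕ => ((d : ℂ) + 1) / 2 - 1 / d).sum) := by
  have hℓ := isL_ell hL ν hν h2
  have h1 := hL.reduced ⟨ν + 1, by omega⟩ (by rw [hν]; push_cast; ring)
  rw [h1]
  have h5 : ∀ (i : Fin (X.dim + 1)) (k : ℕ), (if (i : ℕ) + k + 2 = X.dim then chernCoeff X i *
        ((∑ l : Fin (X.dim + 1), if (l : ℕ) = i + ((⟨ν + 1, by omega⟩ : Fin (X.dim + 1)) : ℕ) then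
          F 0 1 [(Sum.inl l, k), (one X, 0)] else 0) -
            F 0 1 [(Sum.inl i, k), hpow X ⟨ν + 1, by omega⟩]) else 0) =
      if (i : ℕ) + k + 2 = X.dim then chernCoeff X i *
        (deg X * alt X ν k (i + ν + 1) - deg X * alt X ν k i) else 0 := by
    intro i k
    by_cases h : (i : ℕ) + k + 2 = X.dim
    · rw [if_pos h, if_pos h]
      congr 2
      · have h6 : ((⟨ν + 1, by omega⟩ : Fin (X.dim + 1)) : ℕ) = ν + 1 := rfl
        rw [h6]
        by_cases h7 : (i : ℕ) + ν + 1 < X.dim + 1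
        · rw [Finset.sum_eq_single (⟨i + ν + 1, h7⟩ : Fin (X.dim + 1))]
          · rw [if_pos (show (i : ℕ) + ν + 1 = i + (ν + 1) by omega)]
            exact two_point hF ν hν h2 _ hℓ k ⟨i + ν + 1, h7⟩ 0
              (show (i : ℕ) + ν + 1 + ((0 : Fin (X.dim + 1)) : ℕ) + k + 1 = X.dim + ν by
                rw [Fin.val_zero]; omega)
          · intro c _ hc
            rw [if_neg fun h8 => hc (Fin.ext (show (c : ℕ) = i + ν + 1 by omega))]
          · simp
        · rw [alt_big hL hν h2 (by omega), mul_zero]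
          refine Finset.sum_eq_zero fun l _ => ?_
          rw [if_neg]
          have := l.isLt
          omega
      · exact two_point hF ν hν h2 _ hℓ k i ⟨ν + 1, by omega⟩
          (show (i : ℕ) + (ν + 1) + k + 1 = X.dim + ν by omega)
    · rw [if_neg h, if_neg h]
  simp only [h5]
  rw [Finset.sum_range (fun i => ∑ k ∈ Finset.range (X.dim + 1), if i + k + 2 = X.dim then
      chernCoeff X i * (deg X * alt X ν k (i + ν + 1) - deg X * alt X ν k i) else 0) |>.symm,
    sum_diag X.dim (fun i k => chernCoeff X i *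
      (deg X * alt X ν k (i + ν + 1) - deg X * alt X ν k i)) X.two_le_dim]
  have h6 : ∑ i ∈ Finset.range (X.dim - 1), chernCoeff X i *
      (deg X * alt X ν (X.dim - 2 - i) (i + ν + 1) - deg X * alt X ν (X.dim - 2 - i) i) =
      deg X * (∑ i ∈ Finset.range (X.dim - 1), chernCoeff X i *
        alt X ν (X.dim - 2 - i) (i + ν + 1)) -
      deg X * (∑ i ∈ Finset.range (X.dim - 1), chernCoeff X i *
        alt X ν (X.dim - 2 - i) i) := by
    rw [Finset.mul_sum, Finset.mul_sum, ← Finset.sum_sub_distrib]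
    refine Finset.sum_congr rfl fun i _ => by ring
  have h7 : ∑ i ∈ Finset.range (X.dim - 1), chernCoeff X i *
        alt X ν (X.dim - 2 - i) (i + ν + 1) =
      ∑ i ∈ Finset.range (X.dim - ν), chernCoeff X i *
        alt X ν (X.dim - 2 - i) (i + ν + 1) := by
    refine (Finset.sum_subset (Finset.range_mono (by omega)) fun i _ hi => ?_).symm
    have h9 : ¬ i < X.dim - ν := mt Finset.mem_range.2 hi
    rw [alt_big hL hν h2 (by omega), mul_zero]
  rw [h6, h7]
  have h8 : (X.degs.map fun d : ℕ => (d : ℂ) ^ d).prod =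
      deg X * (X.degs.map fun d : ℕ => (d : ℂ) ^ (d - 1)).prod := by
    unfold deg
    have h9 : ∀ L : List ℕ, (∀ d ∈ L, 1 ≤ d) → (L.map fun d : ℕ => (d : ℂ) ^ d).prod =
        (L.prod : ℂ) * (L.map fun d : ℕ => (d : ℂ) ^ (d - 1)).prod := by
      intro L
      induction L with
      | nil => simp
      | cons a L ih =>
        intro hL
        rw [List.map_cons, List.prod_cons, List.prod_cons, List.map_cons, List.prod_cons,
          ih fun d hd => hL d (by simp [hd])]
        obtain ⟨n, rfl⟩ : ∃ n, a = n + 1 := ⟨a - 1, by have := hL a (by simp); omega⟩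
        rw [Nat.add_sub_cancel]
        push_cast
        ring
    exact h9 X.degs X.degs_pos
  rw [h8]
  have h10 : (∑ i ∈ Finset.range (X.dim - 1), chernCoeff X i * alt X ν (X.dim - 2 - i) i) +
      chernCoeff X (X.dim - 1) * (ell X ν (X.dim - 1) + ell X ν X.dim) +
      chernCoeff X X.dim * ell X ν X.dim -
      (∑ i ∈ Finset.range (X.dim - ν), chernCoeff X i *
        alt X ν (X.dim - 2 - i) (i + ν + 1)) =
      (X.degs.map fun d : ℕ => (d : ℂ) ^ (d - 1)).prod * ((ν : ℂ) + 1) *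
      ((ν : ℂ) / 2 + (X.degs.map fun d : ℕ => ((d : ℂ) + 1) / 2 - 1 / d).sum) := h4
  linear_combination (-deg X) * h10

end Vale.Agent.P269.LN.H984
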